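import Mathlib

namespace Vale.Agent.Lib.P334

variable {J F : Type*} [Fintype J] [DecidableEq F]

/-- The `k`-median cost of a nonempty facility set `S`: the sum over all clients `j` of the
distance from `j` to its nearest facility in `S`. -/
noncomputable def cost (d : J → F → ℝ) (S : Finset F) (hS : S.Nonempty) : ℝ :=
  ∑ j : J, S.inf' hS (d j)

/-- The set of the first `t` facilities chosen by the sequence `s`. -/
def chosen (s : ℕ → F) (t : ℕ) : Finset F := (Finset.range t).image s

/-- `s` is a run of the greedy algorithm for `k` steps: for every `t < k`, the facility `s t`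
minimizes the cost of `chosen s t ∪ {i}` over all facilities `i`. -/
def IsGreedyRun (d : J → F → ℝ) (s : ℕ → F) (k : ℕ) : Prop :=
  ∀ t, t < k → ∀ i : F,
    cost d (insert (s t) (chosen s t)) (Finset.insert_nonempty _ _) ≤
      cost d (insert i (chosen s t)) (Finset.insert_nonempty _ _)

end Vale.Agent.Lib.P334
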