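import Mathlib
import Vale.Agent.Lib.P334.Defs

namespace Vale.Agent.Lib.P334

open Finset

variable {J F : Type*} [Fintype J] [DecidableEq F]

/-- clients within distance `a` of some facility of `S` -/
noncomputable def covSet (d : J → F → ℝ) (a : ℝ) (S : Finset F) : Finset J := by
  classical
  exact univ.filter (fun j => ∃ i ∈ S, d j i = a)

theorem mem_covSet (d : J → F → ℝ) (a : ℝ) (S : Finset F) (j : J) :
    j ∈ covSet d a S ↔ ∃ i ∈ S, d j i = a := by
  classical
  unfold covSet
  simp

theorem chosen_succ (s : ℕ → F) (t : ℕ) : chosen s (t + 1) = insert (s t) (chosen s t) := by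
  unfold chosen
  rw [Finset.range_add_one, Finset.image_insert]

open Classical in
theorem inf'_two_valued (d : J → F → ℝ) (a b : ℝ) (hab : a ≤ b)
    (hd : ∀ j i, d j i = a ∨ d j i = b) (S : Finset F) (hS : S.Nonempty) (j : J) :
    S.inf' hS (d j) = if j ∈ covSet d a S then a else b := by
  classical
  by_cases hj : j ∈ covSet d a S
  · rw [if_pos hj]
    rw [mem_covSet] at hj
    obtain ⟨i, hi, hia⟩ := hj
    apply le_antisymm
    · rw [← hia]
      exact Finset.inf'_le _ hi
    · rw [Finset.le_inf'_iff]
      intro i' _
      rcases hd j i' with h | h <;> rw [h]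
      exact hab
  · rw [if_neg hj]
    rw [mem_covSet] at hj
    have hall : ∀ i ∈ S, d j i = b := by
      intro i hi
      rcases hd j i with h | h
      · exact absurd ⟨i, hi, h⟩ hj
      · exact h
    apply le_antisymm
    · obtain ⟨i, hi⟩ := hS
      rw [← hall i hi]
      exact Finset.inf'_le _ hi
    · rw [Finset.le_inf'_iff]
      intro i hi
      rw [hall i hi]

theorem cost_two_valued (d : J → F → ℝ) (a b : ℝ) (hab : a ≤ b)
    (hd : ∀ j i, d j i = a ∨ d j i = b) (S : Finset F) (hS : S.Nonempty) :
    cost d S hS = b * (Fintype.card J : ℝ) - (b - a) * ((covSet d a S).card : ℝ) := by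
  classical
  unfold cost
  have h1 : ∀ j : J, S.inf' hS (d j) = b - (b - a) * (if j ∈ covSet d a S then (1 : ℝ) else 0) := by
    intro j
    rw [inf'_two_valued d a b hab hd S hS j]
    by_cases hj : j ∈ covSet d a S
    · simp [hj]
    · simp [hj]
  rw [Finset.sum_congr rfl (fun j _ => h1 j)]
  rw [Finset.sum_sub_distrib, ← Finset.mul_sum]
  simp [Finset.card_univ, mul_comm]

theorem covSet_mono (d : J → F → ℝ) (a : ℝ) {S T : Finset F} (h : S ⊆ T) :
    covSet d a S ⊆ covSet d a T := by
  intro j hj
  rw [mem_covSet] at hj ⊢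
  obtain ⟨i, hi, hia⟩ := hj
  exact ⟨i, h hi, hia⟩

/-- Key greedy step: some facility of `T` gains at least a `1/|T|` fraction of what is missing. -/
theorem exists_good_step (d : J → F → ℝ) (a : ℝ) (S T : Finset F) (hT : T.Nonempty) :
    ∃ i ∈ T, ((covSet d a T).card : ℝ) - ((covSet d a S).card : ℝ) ≤
      (T.card : ℝ) * (((covSet d a (insert i S)).card : ℝ) - ((covSet d a S).card : ℝ)) := by
  classical
  -- the new clients covered by `T` are covered by the union of the individual gains
  have hsub : covSet d a T \ covSet d a S ⊆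
      T.biUnion (fun i => covSet d a (insert i S) \ covSet d a S) := by
    intro j hj
    rw [Finset.mem_sdiff, mem_covSet] at hj
    obtain ⟨⟨i, hi, hia⟩, hjS⟩ := hj
    rw [Finset.mem_biUnion]
    refine ⟨i, hi, ?_⟩
    rw [Finset.mem_sdiff, mem_covSet]
    exact ⟨⟨i, Finset.mem_insert_self i S, hia⟩, hjS⟩
  have h1 : (covSet d a T).card - (covSet d a S).card ≤
      ∑ i ∈ T, (covSet d a (insert i S) \ covSet d a S).card := by
    calc (covSet d a T).card - (covSet d a S).card ≤ (covSet d a T \ covSet d a S).card :=
          Finset.le_card_sdiff _ _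
      _ ≤ (T.biUnion (fun i => covSet d a (insert i S) \ covSet d a S)).card :=
          Finset.card_le_card hsub
      _ ≤ _ := Finset.card_biUnion_le
  have h2 : ∀ i, ((covSet d a (insert i S) \ covSet d a S).card : ℝ) =
      ((covSet d a (insert i S)).card : ℝ) - ((covSet d a S).card : ℝ) := by
    intro i
    have hss : covSet d a S ⊆ covSet d a (insert i S) :=
      covSet_mono d a (Finset.subset_insert i S)
    rw [Finset.card_sdiff_of_subset hss, Nat.cast_sub (Finset.card_le_card hss)]
  -- pick the facility of `T` with the largest gain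
  obtain ⟨i0, hi0, hmax⟩ := Finset.exists_max_image T
    (fun i => (covSet d a (insert i S) \ covSet d a S).card) hT
  refine ⟨i0, hi0, ?_⟩
  have h3 : ∑ i ∈ T, (covSet d a (insert i S) \ covSet d a S).card ≤
      T.card * (covSet d a (insert i0 S) \ covSet d a S).card := by
    calc _ ≤ ∑ _i ∈ T, (covSet d a (insert i0 S) \ covSet d a S).card :=
          Finset.sum_le_sum (fun i hi => hmax i hi)
      _ = _ := by rw [Finset.sum_const, smul_eq_mul]
  have h4 : ((covSet d a T).card : ℝ) - ((covSet d a S).card : ℝ) ≤
      (((covSet d a T).card - (covSet d a S).card : ℕ) : ℝ) := by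
    rw [sub_le_iff_le_add]
    have : (covSet d a T).card ≤ ((covSet d a T).card - (covSet d a S).card) +
        (covSet d a S).card := by omega
    exact_mod_cast this
  have h5 : (((covSet d a T).card - (covSet d a S).card : ℕ) : ℝ) ≤
      (T.card : ℝ) * ((covSet d a (insert i0 S) \ covSet d a S).card : ℝ) := by
    exact_mod_cast le_trans h1 h3
  rw [← h2 i0]
  linarith

/-- Greedy covers at least a `1 - 1/e` fraction of what any `k` facilities cover. -/
theorem greedy_cover (d : J → F → ℝ) (a b : ℝ) (hab : a < b)
    (hd : ∀ j i, d j i = a ∨ d j i = b) (k : ℕ) (hk : 1 ≤ k) (s : ℕ → F)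
    (hs : IsGreedyRun d s k) (T : Finset F) (hT : T.Nonempty) (hTk : T.card ≤ k) :
    (1 - Real.exp (-1)) * ((covSet d a T).card : ℝ) ≤ ((covSet d a (chosen s k)).card : ℝ) := by
  classical
  set C : ℝ := ((covSet d a T).card : ℝ) with hC
  have hC0 : 0 ≤ C := Nat.cast_nonneg _
  have hkpos : (0 : ℝ) < (k : ℝ) := by exact_mod_cast hk
  set q : ℝ := 1 - 1 / (k : ℝ) with hq
  have hq0 : 0 ≤ q := by
    rw [hq, sub_nonneg, div_le_one hkpos]
    exact_mod_cast hk
  -- one step
  have hstep : ∀ t, t < k → C - ((covSet d a (chosen s (t + 1))).card : ℝ) ≤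
      q * (C - ((covSet d a (chosen s t)).card : ℝ)) := by
    intro t ht
    obtain ⟨i, hi, hgain⟩ := exists_good_step d a (chosen s t) T hT
    have hgr := hs t ht i
    rw [cost_two_valued d a b hab.le hd, cost_two_valued d a b hab.le hd] at hgr
    have hba : 0 < b - a := by linarith
    have hcov : ((covSet d a (insert i (chosen s t))).card : ℝ) ≤
        ((covSet d a (insert (s t) (chosen s t))).card : ℝ) := by
      have : (b - a) * ((covSet d a (insert i (chosen s t))).card : ℝ) ≤
          (b - a) * ((covSet d a (insert (s t) (chosen s t))).card : ℝ) := by linarith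
      exact le_of_mul_le_mul_left this hba
    rw [chosen_succ]
    have hxy : ((covSet d a (chosen s t)).card : ℝ) ≤
        ((covSet d a (insert (s t) (chosen s t))).card : ℝ) := by
      have := Finset.card_le_card
        (covSet_mono d a (Finset.subset_insert (s t) (chosen s t)))
      exact_mod_cast this
    have hTk' : (T.card : ℝ) ≤ (k : ℝ) := by exact_mod_cast hTk
    have hzx : 0 ≤ ((covSet d a (insert i (chosen s t))).card : ℝ) -
        ((covSet d a (chosen s t)).card : ℝ) := by
      have := Finset.card_le_card
        (covSet_mono d a (Finset.subset_insert i (chosen s t)))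
      have : ((covSet d a (chosen s t)).card : ℝ) ≤
          ((covSet d a (insert i (chosen s t))).card : ℝ) := by exact_mod_cast this
      linarith
    set x : ℝ := ((covSet d a (chosen s t)).card : ℝ)
    set y : ℝ := ((covSet d a (insert (s t) (chosen s t))).card : ℝ)
    set z : ℝ := ((covSet d a (insert i (chosen s t))).card : ℝ)
    -- C - x ≤ |T| (z - x) ≤ k (y - x)
    have h1 : C - x ≤ (k : ℝ) * (y - x) := by
      calc C - x ≤ (T.card : ℝ) * (z - x) := hgain
        _ ≤ (k : ℝ) * (z - x) := mul_le_mul_of_nonneg_right hTk' hzx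
        _ ≤ (k : ℝ) * (y - x) := by
            apply mul_le_mul_of_nonneg_left _ hkpos.le
            linarith
    have h2 : (C - x) / (k : ℝ) ≤ y - x := by
      rw [div_le_iff₀ hkpos]
      linarith
    have h3 : q * (C - x) = (C - x) - (C - x) / (k : ℝ) := by
      rw [hq]
      ring
    rw [h3]
    linarith
  -- induction
  have hind : ∀ t, t ≤ k → C - ((covSet d a (chosen s t)).card : ℝ) ≤ q ^ t * C := by
    intro t
    induction t with
    | zero =>
      intro _
      have : covSet d a (chosen s 0) = ∅ := by
        apply Finset.eq_empty_of_forall_notMem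
        intro j hj
        rw [mem_covSet] at hj
        obtain ⟨i, hi, _⟩ := hj
        simp [chosen] at hi
      rw [this]
      simp
    | succ t ih =>
      intro ht
      have h1 := hstep t (by omega)
      have h2 := ih (by omega)
      calc C - ((covSet d a (chosen s (t + 1))).card : ℝ)
          ≤ q * (C - ((covSet d a (chosen s t)).card : ℝ)) := h1
        _ ≤ q * (q ^ t * C) := mul_le_mul_of_nonneg_left h2 hq0
        _ = q ^ (t + 1) * C := by ring
  have hfin := hind k le_rfl
  have hqexp : q ^ k ≤ Real.exp (-1) := by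
    have h1 : q ≤ Real.exp (-(1 / (k : ℝ))) := by
      have := Real.add_one_le_exp (-(1 / (k : ℝ)))
      rw [hq]
      linarith
    calc q ^ k ≤ (Real.exp (-(1 / (k : ℝ)))) ^ k := pow_le_pow_left₀ hq0 h1 k
      _ = Real.exp ((k : ℝ) * (-(1 / (k : ℝ)))) := by rw [Real.exp_nat_mul]
      _ = Real.exp (-1) := by
          congr 1
          field_simp
  have : q ^ k * C ≤ Real.exp (-1) * C := mul_le_mul_of_nonneg_right hqexp hC0
  linarith

/-- On two-valued instances, every greedy run is a `1 + (b - a) / (a e)` approximation. -/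
theorem greedy_two_valued (d : J → F → ℝ) (a b : ℝ) (ha : 0 < a) (hab : a ≤ b)
    (hd : ∀ j i, d j i = a ∨ d j i = b) (k : ℕ) (hk : 1 ≤ k) (s : ℕ → F)
    (hs : IsGreedyRun d s k) (hne : (chosen s k).Nonempty)
    (T : Finset F) (hT : T.Nonempty) (hTk : T.card ≤ k) :
    cost d (chosen s k) hne ≤ (1 + (b - a) / a * Real.exp (-1)) * cost d T hT := by
  classical
  rcases hab.lt_or_eq with hlt | heq
  · rw [cost_two_valued d a b hab hd, cost_two_valued d a b hab hd]
    have hcov := greedy_cover d a b hlt hd k hk s hs T hT hTk
    have hCn : ((covSet d a T).card : ℝ) ≤ (Fintype.card J : ℝ) := by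
      have : (covSet d a T).card ≤ Fintype.card J := by
        rw [← Finset.card_univ]
        exact Finset.card_le_card (Finset.subset_univ _)
      exact_mod_cast this
    set C : ℝ := ((covSet d a T).card : ℝ)
    set G : ℝ := ((covSet d a (chosen s k)).card : ℝ)
    set n : ℝ := (Fintype.card J : ℝ)
    have hC0 : 0 ≤ C := Nat.cast_nonneg _
    have hba : 0 < b - a := by linarith
    have he : 0 < Real.exp (-1) := Real.exp_pos _
    -- cost T ≥ a * n ≥ a * C
    have hcostT : a * C ≤ b * n - (b - a) * C := by nlinarith
    have h1 : (b - a) / a * Real.exp (-1) * (b * n - (b - a) * C) ≥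
        (b - a) * Real.exp (-1) * C := by
      have h2 : (b - a) / a * Real.exp (-1) * (a * C) = (b - a) * Real.exp (-1) * C := by
        field_simp
      have h3 : (b - a) / a * Real.exp (-1) * (a * C) ≤
          (b - a) / a * Real.exp (-1) * (b * n - (b - a) * C) := by
        apply mul_le_mul_of_nonneg_left hcostT
        positivity
      linarith
    have h4 : (b - a) * ((1 - Real.exp (-1)) * C) ≤ (b - a) * G :=
      mul_le_mul_of_nonneg_left hcov hba.le
    nlinarith
  · -- all distances equal: every cost is the same
    subst heq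
    rw [cost_two_valued d a a le_rfl hd, cost_two_valued d a a le_rfl hd]
    simp

end Vale.Agent.Lib.P334
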